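import Vale.Agent.P134.Fin

namespace Vale.Agent.Results.P134.DeGiorgi4

theorem result (u : EuclideanSpace ℝ (Fin 4) → ℝ) (hu : ContDiff ℝ 2 u)
    (heq : ∀ x, ∑ i : Fin 4, fderiv ℝ (fun y => fderiv ℝ u y (EuclideanSpace.single i 1)) x
      (EuclideanSpace.single i 1) = u x ^ 3 - u x)
    (hb : ∀ x, |u x| ≤ 1) (hm : ∀ x, 0 < fderiv ℝ u x (EuclideanSpace.single 3 1)) :
    ∃ (e : EuclideanSpace ℝ (Fin 4)) (h : ℝ → ℝ), ‖e‖ = 1 ∧ (∀ x, u x = h (inner ℝ e x)) ∧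
      ∃ c : ℝ, ∀ s, h s = Real.tanh ((s - c) / Real.sqrt 2) := by
  obtain ⟨e, c, he, h⟩ := Vale.Agent.P134.fin_main u hu
    (fun x => (Vale.Agent.P134.lap_eq hu.contDiffAt).trans (heq x)) hb hm
  exact ⟨e, fun s => Real.tanh ((s - c) / Real.sqrt 2), he, h, c, fun _ => rfl⟩

end Vale.Agent.Results.P134.DeGiorgi4
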