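import Vale.Agent.P134.AAll
import Vale.Agent.P134.BTop
import Vale.Agent.P134.RAll
import Vale.Agent.P134.Main

/-! De Giorgi's conjecture in dimension four. -/

namespace Vale.Agent.Results.P134.DeGiorgiFour

theorem result (u : EuclideanSpace ℝ (Fin 4) → ℝ) (hu : ContDiff ℝ 2 u)
    (heq : ∀ x, Laplacian.laplacian u x = u x ^ 3 - u x) (hbound : ∀ x, |u x| ≤ 1)
    (hmono : ∀ x, 0 < fderiv ℝ u x (EuclideanSpace.single 3 1)) :
    ∃ (e : EuclideanSpace ℝ (Fin 4)) (c : ℝ), ‖e‖ = 1 ∧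
      ∀ x, u x = Real.tanh ((inner ℝ e x - c) / Real.sqrt 2) :=
  Vale.Agent.P134.main_of Vale.Agent.P134.DG.s_a Vale.Agent.P134.s_b Vale.Agent.P134.r_reg'
    Vale.Agent.P134.r_lt' Vale.Agent.P134.r_mod' Vale.Agent.P134.a2_bas Vale.Agent.P134.r_pm'
    u hu heq hbound hmono

end Vale.Agent.Results.P134.DeGiorgiFour
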